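import Mathlib
import Vale.Agent.P126.Main

open scoped Pointwise
open Real Vale.Agent.P126

namespace Vale.Agent.Results.P126.DoublyLogarithmicDuality

theorem result :
    (∃ C : ℝ, 1 ≤ C ∧ ∀ n : ℕ, 1 ≤ n →
      ∀ K L : Set (EuclideanSpace ℝ (Fin n)), IsSymBody K → IsSymBody L →
        log (covNum (polarBody L) ((C * log (2 + min (log (covNum K L)) (n:ℝ))) • polarBody K))
            / (C * log (2 + min (log (covNum K L)) (n:ℝ))) ≤ log (covNum K L) ∧
        log (covNum K L) ≤ (C * log (2 + min (log (covNum K L)) (n:ℝ))) *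
          log (covNum (polarBody L) ((C * log (2 + min (log (covNum K L)) (n:ℝ)))⁻¹ • polarBody K))) ∧
    (∀ m : ℕ, 1 ≤ m → ∃ C : ℝ, 1 ≤ C ∧ ∀ n : ℕ, 1 ≤ n →
      ∀ K L : Set (EuclideanSpace ℝ (Fin n)), IsSymBody K → IsSymBody L →
        log (covNum (polarBody L)
            ((C * (1 + min (log (covNum K L)) (n:ℝ)) ^ (1 / (m:ℝ))) • polarBody K)) / C ≤ log (covNum K L) ∧
        log (covNum K L) ≤ C * log (covNum (polarBody L)
            ((C * (1 + min (log (covNum K L)) (n:ℝ)) ^ (1 / (m:ℝ)))⁻¹ • polarBody K))) :=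
  ⟨duality_log, duality_power⟩

end Vale.Agent.Results.P126.DoublyLogarithmicDuality
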